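import Vale.Agent.P280.N2.Rel
import Vale.Agent.P280.H900.Mon
import Vale.Agent.P280.N.A10
import Vale.Agent.P280.N.A19

/-! P280, stage 2: a field of weight `-f L` at a wall point, modulo `E 0 L` and `E 1 L`. -/

open DirectSum Vale.Agent.P280.T Vale.Agent.P280.H127 Vale.Agent.P280.N Vale.Agent.P280.N.H989
open Vale.Agent.P280.N2

namespace Vale.Agent.P280.H340

variable {r : ℕ} {R : Type} [CommRing R] [IsDomain R] [Algebra ℂ R]
  {𝒜 : ℕ × (Fin r → ℤ) → Submodule ℂ R} [GradedAlgebra 𝒜]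

section
variable {N : ℤ} {n : ℕ} {f : Fin (n + 1) → Fin r → ℤ}
  {β : Fin (n + 1) → Fin (n + 1) → ((Fin r → ℤ) →+ ℤ)} {E F : Fin (n + 1) → Fin (n + 1) → VF R}
  {c : (Fin r → ℤ) →+ ℤ}

omit [GradedAlgebra 𝒜] in
theorem f_inj (hA : AC 𝒜 N n f β E F) : Function.Injective f := by
  intro i j h
  by_contra hij
  have h1 := hA.be i j i hij
  have h2 := hA.be i j j hij
  rw [if_pos rfl, if_neg hij] at h1
  rw [if_neg (Ne.symm hij), if_pos rfl, ← h] at h2
  have := hA.N0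
  omega

theorem z01 (hn : 2 ≤ n) : (0 : Fin (n + 1)) ≠ 1 := fun h => by
  have v1 := one_val hn
  have v0 : ((0 : Fin (n + 1)) : ℕ) = 0 := rfl
  rw [Fin.ext_iff] at h
  omega

theorem z0L (hn : 2 ≤ n) : (0 : Fin (n + 1)) ≠ Fin.last n := fun h => by
  have v0 : ((0 : Fin (n + 1)) : ℕ) = 0 := rfl
  have vL : ((Fin.last n : Fin (n + 1)) : ℕ) = n := rfl
  rw [Fin.ext_iff] at h
  omega

theorem z1L (hn : 2 ≤ n) : (1 : Fin (n + 1)) ≠ Fin.last n := fun h => by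
  have v1 := one_val hn
  have vL : ((Fin.last n : Fin (n + 1)) : ℕ) = n := rfl
  rw [Fin.ext_iff] at h
  omega

/-- At a wall point, with a family of indices which covers the possible polar directions. -/
theorem rm_wall_aux (H : Hyp 𝒜) (hA : AC 𝒜 N n f β E F) (hv : NoVec 𝒜 n f) (hc : Ch2 𝒜 n f c)
    {q : FP 𝒜} {b : Fin r → ℤ} (hb : q.Pi (-b)) (hcb : 0 < c b)
    (hoth : ∀ ψ, q.Pi ψ → ψ ≠ -b → 0 < c ψ) {ι : Type} [Fintype ι] (s : ι → Fin (n + 1))
    (hs : Function.Injective s) (hsL : ∀ i, s i ≠ Fin.last n)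
    (hpi : ∀ i, q.Pi (f (s i) - f (Fin.last n)))
    (h0 : q.Pi (f 0 - f (Fin.last n)) → ∃ i, s i = 0)
    (h1 : b = f 1 → q.Pi (f 1 - f (Fin.last n)) → ∃ i, s i = 1)
    {v : VF R} (hvv : HV 𝒜 (-f (Fin.last n)) v)
    (hk : ∀ d z, Crd q (-b) d z → ∃ k : ℕ, RgV q.q ((iK z) ^ k • v)) :
    ∃ (ρ : VF R) (g : ι → FractionRing R), RgV q.q ρ ∧ HV 𝒜 (-f (Fin.last n)) ρ ∧
      (∀ i, HK 𝒜 0 (f (s i)) (g i)) ∧
      (∀ i d z, Crd q (-b) d z → ∃ k : ℕ, Rg q.q ((iK z) ^ k * g i)) ∧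
      v = ρ + ∑ i, g i • E (s i) (Fin.last n) := by
  classical
  have hfi := f_inj hA
  have hind : Ind q (fun i => E (s i) (Fin.last n)) fun i => f (s i) - f (Fin.last n) :=
    { glob := fun i => (hA.root _ _ (hsL i)).globE
      hv := fun i => (hA.root _ _ (hsL i)).hvE
      inj := fun i j hij => hs (hfi (sub_left_injective hij))
      pi := hpi
      ne := fun i => (hA.root _ _ (hsL i)).atE q (hpi i) }
  obtain ⟨d, z, hz⟩ := XF.exists_coord H q hb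
  obtain ⟨k, hkr⟩ := hk d z hz
  have hn := hA.n2
  have key : RM q.q (Set.range fun i => E (s i) (Fin.last n)) v := by
    refine H900.lemmaM H q hind c hz (fun ψ hψ hne => (hoth ψ hψ hne).le) hcb ?_ hvv k hkr.rm
    intro l ψ M hl hψ hM he
    have hψ' : ψ = 0 ∨ q.Pi ψ := hψ.imp_right fun h => h.1
    obtain ⟨-, h2⟩ := rel_field H hA hv hc hb hcb hoth hl hψ' hM he
    have hne : ∀ i : Fin (n + 1), i ≠ Fin.last n → ψ = f i - f (Fin.last n) → q.Pi ψ := by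
      intro i hi he
      rcases hψ with h | h
      · rw [h] at he
        exact absurd (hfi (sub_eq_zero.1 he.symm)) hi
      · exact h.1
    have hno : ∀ i, ψ = f (s i) - f (Fin.last n) → False := by
      intro i hi
      rcases hψ with h | h
      · rw [h] at hi
        exact hsL i (hfi (sub_eq_zero.1 hi.symm))
      · exact h.2 i hi
    rcases h2 with ⟨hb1, -, h3⟩ | ⟨-, -, h3⟩ | ⟨-, -, h3⟩
    · obtain ⟨i, hi⟩ := h1 hb1 (h3 ▸ hne 1 (z1L hn) h3)
      exact hno i (by rw [hi]; exact h3)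
    · obtain ⟨i, hi⟩ := h0 (h3 ▸ hne 0 (z0L hn) h3)
      exact hno i (by rw [hi]; exact h3)
    · obtain ⟨i, hi⟩ := h0 (h3 ▸ hne 0 (z0L hn) h3)
      exact hno i (by rw [hi]; exact h3)
  obtain ⟨ρ, g, hρ, hρh, hg, he⟩ := rm_hom H q hind hvv key
  refine ⟨ρ, g, hρ, hρh, fun i => (hg i).cast rfl (by abel), ?_, he⟩
  intro i d' z' hz'
  obtain ⟨k', hk'⟩ := hk d' z' hz'
  refine ⟨k', ?_⟩
  have h4 : RgV q.q (∑ i, ((iK z') ^ k' * g i) • E (s i) (Fin.last n)) := by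
    have h5 : ∑ i, ((iK z') ^ k' * g i) • E (s i) (Fin.last n) =
        (iK z') ^ k' • v - (iK z') ^ k' • ρ := by
      rw [he, smul_add, add_sub_cancel_left, Finset.smul_sum]
      exact Finset.sum_congr rfl fun i _ => by rw [mul_smul]
    rw [h5]
    refine hk'.sub (RgV.smul ?_ hρ)
    rw [← iK_pow]
    exact Rg.iK _
  exact lf5 H q hind _ h4 i

/-- A field of weight `-f L` at a wall point: `g0` and `g1` have poles along the coordinate only. -/
theorem rm_wall (H : Hyp 𝒜) (hA : AC 𝒜 N n f β E F) (hv : NoVec 𝒜 n f) (hc : Ch2 𝒜 n f c)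
    {q : FP 𝒜} {b : Fin r → ℤ} (hb : q.Pi (-b)) (hcb : 0 < c b)
    (hoth : ∀ ψ, q.Pi ψ → ψ ≠ -b → 0 < c ψ)
    {v : VF R} (hvv : HV 𝒜 (-f (Fin.last n)) v)
    (hk : ∀ d z, Crd q (-b) d z → ∃ k : ℕ, RgV q.q ((iK z) ^ k • v)) :
    ∃ (ρ : VF R) (g0 g1 : FractionRing R), RgV q.q ρ ∧ HV 𝒜 (-f (Fin.last n)) ρ ∧
      HK 𝒜 0 (f 0) g0 ∧ HK 𝒜 0 (f 1) g1 ∧
      (∀ d z, Crd q (-b) d z → ∃ k : ℕ, Rg q.q ((iK z) ^ k * g0)) ∧
      (∀ d z, Crd q (-b) d z → ∃ k : ℕ, Rg q.q ((iK z) ^ k * g1)) ∧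
      (¬ q.Pi (f 0 - f (Fin.last n)) → g0 = 0) ∧
      (¬ (b = f 1 ∧ q.Pi (f 1 - f (Fin.last n))) → g1 = 0) ∧
      v = ρ + (g0 • E 0 (Fin.last n) + g1 • E 1 (Fin.last n)) := by
  classical
  have hn := hA.n2
  let s : Fin 2 → Fin (n + 1) := ![0, 1]
  let P : Fin 2 → Prop := ![q.Pi (f 0 - f (Fin.last n)), b = f 1 ∧ q.Pi (f 1 - f (Fin.last n))]
  have hsi : Function.Injective s := by
    intro i j
    fin_cases i <;> fin_cases j
    · exact fun _ => rfl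
    · exact fun h => absurd h (z01 hn)
    · exact fun h => absurd h.symm (z01 hn)
    · exact fun _ => rfl
  have hsL : ∀ i, s i ≠ Fin.last n := by
    intro i
    fin_cases i
    · exact z0L hn
    · exact z1L hn
  have hPpi : ∀ i, P i → q.Pi (f (s i) - f (Fin.last n)) := by
    intro i
    fin_cases i
    · exact fun h => h
    · exact fun h => h.2
  obtain ⟨ρ, g, h1, h2, h3, h4, h5⟩ := rm_wall_aux H hA hv hc hb hcb hoth
    (fun i : {i : Fin 2 // P i} => s i.1) (fun i j h => Subtype.ext (hsi h)) (fun i => hsL i.1)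
    (fun i => hPpi i.1 i.2) (fun h => ⟨⟨0, h⟩, rfl⟩) (fun hb1 h => ⟨⟨1, ⟨hb1, h⟩⟩, rfl⟩) hvv hk
  set g' : Fin 2 → FractionRing R := fun i => if h : P i then g ⟨i, h⟩ else 0 with hg'
  have k1 : ∀ i, HK 𝒜 0 (f (s i)) (g' i) := by
    intro i
    by_cases h : P i
    · rw [hg']
      simp only [dif_pos h]
      exact h3 ⟨i, h⟩
    · rw [hg']
      simp only [dif_neg h]
      exact HK.zero le_rfl
  have k2 : ∀ i d z, Crd q (-b) d z → ∃ k : ℕ, Rg q.q ((iK z) ^ k * g' i) := by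
    intro i d z hz
    by_cases h : P i
    · rw [hg']
      simp only [dif_pos h]
      exact h4 ⟨i, h⟩ d z hz
    · rw [hg']
      simp only [dif_neg h]
      exact ⟨0, by rw [mul_zero]; exact Rg.zero⟩
  have k3 : ∑ i : {i : Fin 2 // P i}, g i • E (s i.1) (Fin.last n) =
      ∑ i, g' i • E (s i) (Fin.last n) := by
    have e1 : ∑ i, g' i • E (s i) (Fin.last n) =
        ∑ i ∈ Finset.univ.filter P, g' i • E (s i) (Fin.last n) := by
      refine (Finset.sum_filter_of_ne ?_).symm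
      intro i _ hne
      by_contra h
      have h' : ¬ P i := h
      exact hne (by rw [show g' i = 0 from dif_neg h', zero_smul])
    rw [e1, Finset.sum_subtype (Finset.univ.filter P) (p := P) (by simp)]
    refine Finset.sum_congr rfl fun i _ => ?_
    rw [hg']
    simp only [dif_pos i.2]
  refine ⟨ρ, g' 0, g' 1, h1, h2, k1 0, k1 1, k2 0, k2 1, fun h => ?_, fun h => ?_, ?_⟩
  · exact dif_neg h
  · exact dif_neg h
  · rw [h5, k3, Fin.sum_univ_two]
    rfl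

end

end Vale.Agent.P280.H340
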