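import Vale.Agent.P280.H587.Generic

/-! P280, plan N: the face of a boundary weight. Vertices, reflections of vertices, and the choice
of a functional which exposes the smallest face. Pure combinatorics of a finite set of weights. -/

namespace Vale.Agent.P280.H340

variable {r : ℕ}

/-- `χ` is a vertex of `W`. -/
def IsVx (W : Set (Fin r → ℤ)) (χ : Fin r → ℤ) : Prop :=
  χ ∈ W ∧ ∃ l : (Fin r → ℤ) →+ ℤ, 0 < l χ ∧ ∀ ω ∈ W, ω ≠ χ → l ω < l χ

/-- The combinatorial part of the sl2 of a vertex. -/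
structure Rt (W : Set (Fin r → ℤ)) (N : ℤ) (χ : Fin r → ℤ) (β : (Fin r → ℤ) →+ ℤ) : Prop where
  two : β χ = 2 * N
  int : ∀ ω ∈ W, N ∣ β ω
  bd : ∀ ω ∈ W, ω ≠ χ → ω ≠ -χ → |β ω| ≤ N
  hull : ∀ (l : (Fin r → ℤ) →+ ℤ) (a : ℤ), (∀ ω ∈ W, l ω ≤ a) →
    ∀ μ ∈ W, N * l μ - β μ * l χ ≤ N * a

variable {W : Set (Fin r → ℤ)} {N : ℤ}

theorem exists_bd (hW : W.Finite) (g : (Fin r → ℤ) →+ ℤ) :
    ∃ K : ℤ, 0 ≤ K ∧ ∀ ω ∈ W, -K ≤ g ω ∧ g ω ≤ K := by
  obtain ⟨K, hK⟩ := (hW.image fun ω => |g ω|).bddAbove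
  refine ⟨max K 0, le_max_right _ _, fun ω hω => ?_⟩
  have h1 : |g ω| ≤ K := hK ⟨ω, hω, rfl⟩
  have h2 := le_max_left K 0
  constructor
  · have := neg_abs_le (g ω)
    linarith
  · have := le_abs_self (g ω)
    linarith

theorem ext_of_le {x y : Fin r → ℤ} (h : ∀ f : (Fin r → ℤ) →+ ℤ, f x ≤ f y) : x = y := by
  funext i
  have h1 : x i ≤ y i := h (Pi.evalAddMonoidHom (fun _ : Fin r => ℤ) i)
  have h2 : -(x i) ≤ -(y i) := h (-(Pi.evalAddMonoidHom (fun _ : Fin r => ℤ) i))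
  linarith

theorem smul_add_apply (B : ℤ) (f g : (Fin r → ℤ) →+ ℤ) (m : Fin r → ℤ) :
    (B • f + g) m = B * f m + g m := by
  rw [AddMonoidHom.add_apply, AddMonoidHom.smul_apply, smul_eq_mul]

/-- Every functional attains its maximum on a face at a vertex. -/
theorem exists_vertex (hW : W.Finite) {f0 : (Fin r → ℤ) →+ ℤ} {x : Fin r → ℤ} (hx : x ∈ W)
    (hpos : 0 < f0 x) (hmax : ∀ ω ∈ W, f0 ω ≤ f0 x) (f : (Fin r → ℤ) →+ ℤ) :
    ∃ χ, IsVx W χ ∧ f0 χ = f0 x ∧ ∀ ω ∈ W, f0 ω = f0 x → f ω ≤ f χ := by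
  obtain ⟨g, hg⟩ := H587.exists_generic hW
  obtain ⟨Kg, hKg0, hKg⟩ := exists_bd hW g
  obtain ⟨K, hK0, hK⟩ := exists_bd hW ((2 * Kg + 1) • f + g)
  obtain ⟨χ, hχ, hχm⟩ := Set.exists_max_image W
    ((2 * K + 1) • f0 + ((2 * Kg + 1) • f + g)) hW ⟨x, hx⟩
  simp only [smul_add_apply] at hχm hK
  have h1 : f0 χ = f0 x := by
    have h2 := hχm x hx
    have h3 := hmax χ hχ
    have h4 := hK x hx
    have h5 := hK χ hχ
    by_contra hne
    have h6 : f0 χ + 1 ≤ f0 x := by omega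
    nlinarith
  refine ⟨χ, ⟨hχ, (2 * K + 1) • f0 + ((2 * Kg + 1) • f + g), ?_, ?_⟩, h1, ?_⟩
  · simp only [smul_add_apply]
    have h5 := hK χ hχ
    rw [h1]
    nlinarith
  · intro ω hω hne
    simp only [smul_add_apply]
    refine lt_of_le_of_ne (hχm ω hω) fun h2 => hne ?_
    have h4 := hK ω hω
    have h5 := hK χ hχ
    have h6 : f0 ω = f0 χ := by
      by_contra hne'
      rcases lt_or_gt_of_ne hne' with h | h
      · have : f0 ω + 1 ≤ f0 χ := by omega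
        nlinarith
      · have : f0 χ + 1 ≤ f0 ω := by omega
        nlinarith
    have h7 : (2 * Kg + 1) * f ω + g ω = (2 * Kg + 1) * f χ + g χ := by
      rw [h6] at h2
      linarith
    have h8 := hKg ω hω
    have h9 := hKg χ hχ
    have h10 : f ω = f χ := by
      by_contra hne'
      rcases lt_or_gt_of_ne hne' with h | h
      · have : f ω + 1 ≤ f χ := by omega
        nlinarith
      · have : f χ + 1 ≤ f ω := by omega
        nlinarith
    rw [h10] at h7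
    exact hg hω hχ (by linarith)
  · intro ω hω h0
    have h2 := hχm ω hω
    rw [h0, ← h1] at h2
    have h8 := hKg ω hω
    have h9 := hKg χ hχ
    by_contra hlt
    have : f χ + 1 ≤ f ω := by omega
    nlinarith

/-- The reflection of a vertex is a vertex. -/
theorem Rt.refl {χ x : Fin r → ℤ} {β : (Fin r → ℤ) →+ ℤ} (h : Rt W N χ β) (hW : W.Finite)
    (hN : 0 < N) (hx : IsVx W x) {k : ℤ} (hk : β x = N * k) : IsVx W (x - k • χ) := by
  obtain ⟨hxW, l, hl0, hl⟩ := hx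
  have hle : ∀ ω ∈ W, l ω ≤ l x := fun ω hω => by
    by_cases hne : ω = x
    · rw [hne]
    · exact (hl ω hω hne).le
  have happ : ∀ m, (N • l + (-(l χ)) • β) m = N * l m - β m * l χ := fun m => by
    rw [AddMonoidHom.add_apply, AddMonoidHom.smul_apply, AddMonoidHom.smul_apply, smul_eq_mul,
      smul_eq_mul]
    ring
  have h1 : ∀ μ ∈ W, N * l μ - β μ * l χ ≤ N * l x := h.hull l _ hle
  -- the weights where the reflected functional is maximal
  have key : ∀ μ ∈ W, N * l μ - β μ * l χ = N * l x → μ = x - k • χ := by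
    intro μ hμ heq
    have h2 : N • μ - β μ • χ = N • x := by
      apply ext_of_le
      intro f
      obtain ⟨K, hK0, hK⟩ := exists_bd hW f
      have h3 := h.hull ((2 * K + 1) • l + f) ((2 * K + 1) * l x + f x) (fun ω hω => by
        rw [smul_add_apply]
        by_cases hne : ω = x
        · rw [hne]
        · have h4 := hl ω hω hne
          have h5 := hK ω hω
          have h6 := hK x hxW
          have : l ω + 1 ≤ l x := by omega
          nlinarith) μ hμ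
      rw [smul_add_apply, smul_add_apply] at h3
      rw [map_sub, map_zsmul, map_zsmul, map_zsmul, smul_eq_mul, smul_eq_mul, smul_eq_mul]
      have h4 : (2 * K + 1) * (N * l μ - β μ * l χ) = (2 * K + 1) * (N * l x) := by rw [heq]
      nlinarith
    have h3 : β μ = -(N * k) := by
      have h4 := congrArg β h2
      rw [map_sub, map_zsmul, map_zsmul, map_zsmul, smul_eq_mul, smul_eq_mul, smul_eq_mul, h.two,
        hk] at h4
      have h5 : N * β μ = N * (-(N * k)) := by linarith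
      exact mul_left_cancel₀ hN.ne' h5
    rw [h3] at h2
    funext i
    have h4 := congrFun h2 i
    simp only [Pi.sub_apply, Pi.smul_apply, smul_eq_mul] at h4 ⊢
    have h5 : N * μ i = N * (x i - k * χ i) := by linarith
    exact mul_left_cancel₀ hN.ne' h5
  -- the maximum is attained
  obtain ⟨μ0, hμ0, hmax⟩ := Set.exists_max_image W (N • l + (-(l χ)) • β) hW ⟨x, hxW⟩
  simp only [happ] at hmax
  have h2 : N * l μ0 - β μ0 * l χ = N * l x := by
    refine le_antisymm (h1 μ0 hμ0) ?_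
    have h3 := h.hull (N • l + (-(l χ)) • β) _ (fun ω hω => by
      rw [happ]
      exact hmax ω hω) x hxW
    rw [happ, happ, h.two] at h3
    have h4 : N * (N * l x) ≤ N * (N * l μ0 - β μ0 * l χ) := by linarith
    exact le_of_mul_le_mul_left h4 hN
  have h3 := key μ0 hμ0 h2
  rw [← h3]
  refine ⟨hμ0, N • l + (-(l χ)) • β, ?_, fun ω hω hne => ?_⟩
  · rw [happ, h2]
    exact mul_pos hN hl0
  · rw [happ, happ, h2]
    refine lt_of_le_of_ne (h1 ω hω) fun h4 => hne ?_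
    rw [key ω hω h4, h3]

/-- The situation: `L` exposes the smallest face which contains `lam`. -/
structure Ctx (W : Set (Fin r → ℤ)) (N : ℤ) (β : (Fin r → ℤ) → ((Fin r → ℤ) →+ ℤ))
    (lam : Fin r → ℤ) (L : (Fin r → ℤ) →+ ℤ) : Prop where
  fin : W.Finite
  N0 : 0 < N
  R : ∀ χ, IsVx W χ → Rt W N χ (β χ)
  mem : lam ∈ W
  pos : 0 < L lam
  max : ∀ ω ∈ W, L ω ≤ L lam
  rel : ∀ f : (Fin r → ℤ) →+ ℤ, (∀ ω ∈ W, L ω = L lam → f ω ≤ f lam) →
    ∀ ω ∈ W, L ω = L lam → f ω = f lam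

theorem exists_ctx (hW : W.Finite) (hN : 0 < N) {β : (Fin r → ℤ) → ((Fin r → ℤ) →+ ℤ)}
    (hR : ∀ χ, IsVx W χ → Rt W N χ (β χ)) {lam : Fin r → ℤ} (hlam : lam ∈ W)
    {l' : (Fin r → ℤ) →+ ℤ} (hpos : 0 < l' lam) (hl' : ∀ ω ∈ W, l' ω ≤ l' lam) :
    ∃ L, Ctx W N β lam L := by
  classical
  -- a supporting functional for each weight outside the face
  have hch : ∀ ω : Fin r → ℤ, ∃ l : (Fin r → ℤ) →+ ℤ, (∀ ω' ∈ W, l ω' ≤ l lam) ∧
      ((∃ l1 : (Fin r → ℤ) →+ ℤ, (∀ ω' ∈ W, l1 ω' ≤ l1 lam) ∧ l1 ω < l1 lam) →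
        l ω < l lam) := by
    intro ω
    by_cases h : ∃ l1 : (Fin r → ℤ) →+ ℤ, (∀ ω' ∈ W, l1 ω' ≤ l1 lam) ∧ l1 ω < l1 lam
    · obtain ⟨l1, h1, h2⟩ := h
      exact ⟨l1, h1, fun _ => h2⟩
    · exact ⟨0, fun _ _ => le_rfl, fun h' => absurd h' h⟩
  choose l hl1 hl2 using hch
  let S : (Fin r → ℤ) →+ ℤ := ∑ ω ∈ hW.toFinset, l ω
  have hS : ∀ m, S m = ∑ ω ∈ hW.toFinset, l ω m := fun m => by
    simp only [S, AddMonoidHom.finsetSum_apply]
  have hSle : ∀ ω ∈ W, S ω ≤ S lam := fun ω hω => by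
    rw [hS, hS]
    exact Finset.sum_le_sum fun ω' _ => hl1 ω' ω hω
  have hSlt : ∀ ω ∈ W, S ω = S lam → ∀ l1 : (Fin r → ℤ) →+ ℤ, (∀ ω' ∈ W, l1 ω' ≤ l1 lam) →
      l1 ω = l1 lam := by
    intro ω hω heq l1 h1
    by_contra hne
    have h2 : l1 ω < l1 lam := lt_of_le_of_ne (h1 ω hω) hne
    have h3 := hl2 ω ⟨l1, h1, h2⟩
    rw [hS, hS] at heq
    exact (Finset.sum_lt_sum (fun ω' _ => hl1 ω' ω hω) ⟨ω, hW.mem_toFinset.2 hω, h3⟩).ne heq
  obtain ⟨K, hK0, hK⟩ := exists_bd hW S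
  obtain ⟨L, hLa⟩ : ∃ L : (Fin r → ℤ) →+ ℤ, ∀ m, L m = (2 * K + 1) * l' m + S m :=
    ⟨(2 * K + 1) • l' + S, fun m => smul_add_apply _ _ _ _⟩
  have hLle : ∀ ω ∈ W, L ω ≤ L lam := fun ω hω => by
    rw [hLa, hLa]
    have h1 := hl' ω hω
    have h2 := hSle ω hω
    nlinarith
  have hcase : ∀ ω ∈ W, L ω = L lam → S ω = S lam := by
    intro ω hω h0
    rw [hLa, hLa] at h0
    have h1 := hl' ω hω
    have h2 := hSle ω hω
    nlinarith
  refine ⟨L, hW, hN, hR, hlam, ?_, hLle, fun f hf ω hω heq => ?_⟩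
  · rw [hLa]
    have := hK lam hlam
    nlinarith
  · obtain ⟨B, hB0, hB⟩ := exists_bd hW f
    have h1 : ∀ ω' ∈ W, ((2 * B + 1) • L + f) ω' ≤ ((2 * B + 1) • L + f) lam := by
      intro ω' hω'
      rw [smul_add_apply, smul_add_apply]
      rcases (hLle ω' hω').lt_or_eq with h3 | h3
      · have h4 := hB ω' hω'
        have h5 := hB lam hlam
        have h6 : L ω' + 1 ≤ L lam := by omega
        nlinarith
      · rw [h3]
        have := hf ω' hω' h3
        linarith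
    have h2 := hSlt ω hω (hcase ω hω heq) _ h1
    rw [smul_add_apply, smul_add_apply, heq] at h2
    linarith

end Vale.Agent.P280.H340
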