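import Vale.Agent.P280.H340.FaceA

/-! P280, plan N: the vertices of the smallest face which contains a boundary weight. -/

namespace Vale.Agent.P280.H340

variable {r : ℕ} {W : Set (Fin r → ℤ)} {N : ℤ} {β : (Fin r → ℤ) → ((Fin r → ℤ) →+ ℤ)}
  {lam : Fin r → ℤ} {L : (Fin r → ℤ) →+ ℤ}

/-- A vertex on the face of `lam`. -/
def OnF (W : Set (Fin r → ℤ)) (L : (Fin r → ℤ) →+ ℤ) (lam χ : Fin r → ℤ) : Prop :=
  IsVx W χ ∧ L χ = L lam

theorem Ctx.exists_on (C : Ctx W N β lam L) (f : (Fin r → ℤ) →+ ℤ) :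
    ∃ χ, OnF W L lam χ ∧ ∀ ω ∈ W, L ω = L lam → f ω ≤ f χ := by
  obtain ⟨χ, h1, h2, h3⟩ := exists_vertex C.fin C.mem C.pos C.max f
  exact ⟨χ, ⟨h1, h2⟩, h3⟩

theorem Ctx.nonneg (C : Ctx W N β lam L) {χ ω : Fin r → ℤ} (hχ : OnF W L lam χ) (hω : ω ∈ W)
    (hL : L ω = L lam) : 0 ≤ β χ ω := by
  have h1 := (C.R χ hχ.1).hull L (L lam) C.max ω hω
  rw [hL, hχ.2] at h1
  have h2 := C.pos
  by_contra hlt
  have h3 : β χ ω ≤ -1 := by omega
  nlinarith

theorem Ctx.ne_neg (C : Ctx W N β lam L) {χ ω : Fin r → ℤ} (hχ : OnF W L lam χ)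
    (hL : L ω = L lam) : ω ≠ -χ := by
  rintro rfl
  rw [map_neg, hχ.2] at hL
  have := C.pos
  omega

theorem eq_zero_or {N x : ℤ} (hN : 0 < N) (hd : N ∣ x) (h0 : 0 ≤ x) (h1 : x ≤ N) :
    x = 0 ∨ x = N := by
  obtain ⟨k, rfl⟩ := hd
  have h2 : 0 ≤ k := by
    by_contra h
    have : k ≤ -1 := by omega
    nlinarith
  have h3 : k ≤ 1 := by
    by_contra h
    have : 2 ≤ k := by omega
    nlinarith
  have h4 : k = 0 ∨ k = 1 := by omega
  rcases h4 with rfl | rfl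
  · left
    ring
  · right
    ring

theorem Ctx.cases (C : Ctx W N β lam L) {χ ω : Fin r → ℤ} (hχ : OnF W L lam χ) (hω : ω ∈ W)
    (hL : L ω = L lam) (hne : ω ≠ χ) : β χ ω = 0 ∨ β χ ω = N := by
  have hR := C.R χ hχ.1
  have h1 := hR.bd ω hω hne (C.ne_neg hχ hL)
  exact eq_zero_or C.N0 (hR.int ω hω) (C.nonneg hχ hω hL) (abs_le.1 h1).2

/-- `lam` is not a vertex of its face. -/
def NV (W : Set (Fin r → ℤ)) (L : (Fin r → ℤ) →+ ℤ) (lam : Fin r → ℤ) : Prop :=
  ∀ χ, OnF W L lam χ → lam ≠ χ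

theorem Ctx.b_lam (C : Ctx W N β lam L) (hv : NV W L lam) {χ : Fin r → ℤ}
    (hχ : OnF W L lam χ) : β χ lam = N := by
  rcases C.cases hχ C.mem rfl (hv χ hχ) with h | h
  · exfalso
    have h1 := C.rel (-(β χ)) (fun ω hω hL => by
      rw [AddMonoidHom.neg_apply, AddMonoidHom.neg_apply, h]
      have := C.nonneg hχ hω hL
      omega) χ hχ.1.1 hχ.2
    rw [AddMonoidHom.neg_apply, AddMonoidHom.neg_apply, h, (C.R χ hχ.1).two] at h1
    have := C.N0
    omega
  · exact h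

theorem Ctx.exists_opp (C : Ctx W N β lam L) (hv : NV W L lam) {χ : Fin r → ℤ}
    (hχ : OnF W L lam χ) : ∃ χ', OnF W L lam χ' ∧ β χ χ' = 0 := by
  obtain ⟨χ', h1, h2⟩ := C.exists_on (-(β χ))
  refine ⟨χ', h1, ?_⟩
  simp only [AddMonoidHom.neg_apply] at h2
  by_contra hne
  have h3 : N ≤ β χ χ' := by
    by_cases h4 : χ' = χ
    · rw [h4, (C.R χ hχ.1).two]
      have := C.N0
      omega
    · rcases C.cases hχ h1.1.1 h1.2 h4 with h | h
      · exact absurd h hne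
      · rw [h]
  have h4 := C.rel (-(β χ)) (fun ω hω hL => by
    rw [AddMonoidHom.neg_apply, AddMonoidHom.neg_apply, C.b_lam hv hχ]
    have := h2 ω hω hL
    omega) χ hχ.1.1 hχ.2
  rw [AddMonoidHom.neg_apply, AddMonoidHom.neg_apply, C.b_lam hv hχ, (C.R χ hχ.1).two] at h4
  have := C.N0
  omega

theorem Ctx.symm_zero (C : Ctx W N β lam L) {χ χ' : Fin r → ℤ}
    (hχ : OnF W L lam χ) (hχ' : OnF W L lam χ') (h : β χ χ' = 0) : β χ' χ = 0 := by
  have hN := C.N0
  have hne : χ ≠ χ' := by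
    rintro rfl
    rw [(C.R χ hχ.1).two] at h
    omega
  rcases C.cases hχ' hχ.1.1 hχ.2 hne with h1 | h1
  · exact h1
  exfalso
  have h2 := (C.R χ' hχ'.1).refl C.fin hN hχ.1 (k := 1) (by rw [h1, mul_one])
  rw [one_smul] at h2
  have hR := C.R χ hχ.1
  have h3 : β χ (χ - χ') = 2 * N := by rw [map_sub, h, hR.two, sub_zero]
  have h4 := hR.bd (χ - χ') h2.1 (fun h4 => by
    have h5 := congrArg L h4
    rw [map_sub, hχ.2, hχ'.2] at h5
    have := C.pos
    omega) (fun h4 => by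
    have h5 := congrArg L h4
    rw [map_sub, map_neg, hχ.2, hχ'.2] at h5
    have := C.pos
    omega)
  rw [h3, abs_of_pos (by omega)] at h4
  omega

/-- the two coroots of an opposite pair add up to `2 N` on the face -/
theorem Ctx.add_opp (C : Ctx W N β lam L) (hv : NV W L lam) {χ χ' : Fin r → ℤ}
    (hχ : OnF W L lam χ) (hχ' : OnF W L lam χ') (h : β χ χ' = 0) {ω : Fin r → ℤ} (hω : ω ∈ W)
    (hL : L ω = L lam) : β χ ω + β χ' ω = 2 * N := by
  have hN := C.N0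
  have h' := C.symm_zero hχ hχ' h
  have h1 := C.rel (β χ + β χ') (fun ω hω hL => by
    rw [AddMonoidHom.add_apply, AddMonoidHom.add_apply, C.b_lam hv hχ, C.b_lam hv hχ']
    by_cases h1 : ω = χ
    · rw [h1, h', (C.R χ hχ.1).two]
      omega
    · by_cases h2 : ω = χ'
      · rw [h2, h, (C.R χ' hχ'.1).two]
        omega
      · have h3 := C.cases hχ hω hL h1
        have h4 := C.cases hχ' hω hL h2
        omega) ω hω hL
  rw [AddMonoidHom.add_apply, AddMonoidHom.add_apply, C.b_lam hv hχ, C.b_lam hv hχ'] at h1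
  omega

/-- the only weight of the face where `β χ` vanishes is the opposite vertex -/
theorem Ctx.eq_opp (C : Ctx W N β lam L) (hv : NV W L lam) {χ χ' : Fin r → ℤ}
    (hχ : OnF W L lam χ) (hχ' : OnF W L lam χ') (h : β χ χ' = 0) {ω : Fin r → ℤ} (hω : ω ∈ W)
    (hL : L ω = L lam) (h0 : β χ ω = 0) : ω = χ' := by
  have hN := C.N0
  have h1 := C.add_opp hv hχ hχ' h hω hL
  by_contra hne
  have h2 := C.cases hχ' hω hL hne
  omega

theorem Ctx.b_ne (C : Ctx W N β lam L) (hv : NV W L lam) {χ χ' : Fin r → ℤ}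
    (hχ : OnF W L lam χ) (hχ' : OnF W L lam χ') (h : β χ χ' = 0) {ω : Fin r → ℤ} (hω : ω ∈ W)
    (hL : L ω = L lam) (h1 : ω ≠ χ) (h2 : ω ≠ χ') : β χ ω = N :=
  (C.cases hχ hω hL h1).resolve_left fun h0 => h2 (C.eq_opp hv hχ hχ' h hω hL h0)

/-- opposite pairs have the same sum -/
theorem Ctx.sum_eq (C : Ctx W N β lam L) (hv : NV W L lam) {χ χ' ψ ψ' : Fin r → ℤ}
    (hχ : OnF W L lam χ) (hχ' : OnF W L lam χ') (h : β χ χ' = 0) (hψ : OnF W L lam ψ)
    (hψ' : OnF W L lam ψ') (h' : β ψ ψ' = 0) : χ + χ' = ψ + ψ' := by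
  have hN := C.N0
  by_cases e1 : ψ = χ
  · subst e1
    rw [C.eq_opp hv hψ hψ' h' hχ'.1.1 hχ'.2 h]
  by_cases e2 : ψ = χ'
  · subst e2
    rw [C.eq_opp hv hψ hψ' h' hχ.1.1 hχ.2 (C.symm_zero hχ hψ h), add_comm]
  have e3 : ψ' ≠ χ := fun e => e2 (by
    subst e
    exact C.eq_opp hv hψ' hχ' h hψ.1.1 hψ.2 (C.symm_zero hψ hψ' h'))
  have e4 : ψ' ≠ χ' := fun e => e1 (by
    subst e
    exact (C.eq_opp hv hψ' hχ (C.symm_zero hχ hψ' h) hψ.1.1 hψ.2 (C.symm_zero hψ hψ' h')))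
  -- the values
  have v1 : β χ ψ' = N := C.b_ne hv hχ hχ' h hψ'.1.1 hψ'.2 e3 e4
  have v2 : β χ ψ = N := C.b_ne hv hχ hχ' h hψ.1.1 hψ.2 e1 e2
  have v3 : β ψ χ = N := C.b_ne hv hψ hψ' h' hχ.1.1 hχ.2 (Ne.symm e1) (Ne.symm e3)
  -- first reflection
  have r1 := (C.R χ hχ.1).refl C.fin hN hψ'.1 (k := 1) (by rw [v1, mul_one])
  rw [one_smul] at r1
  have r2 := (C.R ψ hψ.1).refl C.fin hN r1 (k := -1) (by
    rw [map_sub, h', v3, zero_sub, mul_neg, mul_one])
  rw [neg_smul, one_smul, sub_neg_eq_add] at r2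
  have h0 : β χ (ψ' - χ + ψ) = 0 := by
    rw [map_add, map_sub, v1, v2, (C.R χ hχ.1).two]
    ring
  have hL : L (ψ' - χ + ψ) = L lam := by
    rw [map_add, map_sub, hψ.2, hψ'.2, hχ.2]
    ring
  have h3 := C.eq_opp hv hχ hχ' h r2.1 hL h0
  rw [← h3]
  abel

/-- The choice of the opposite vertex. -/
theorem Ctx.exists_opp_fun (C : Ctx W N β lam L) (hv : NV W L lam) :
    ∃ op : (Fin r → ℤ) → (Fin r → ℤ), ∀ χ, OnF W L lam χ → OnF W L lam (op χ) ∧
      β χ (op χ) = 0 := by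
  classical
  refine ⟨fun χ => if h : OnF W L lam χ then (C.exists_opp hv h).choose else 0, fun χ hχ => ?_⟩
  simp only [dif_pos hχ]
  exact (C.exists_opp hv hχ).choose_spec

/-- `2 ω` is the sum of an opposite pair if `ω` is no vertex. -/
theorem Ctx.two_smul (C : Ctx W N β lam L) (hv : NV W L lam)
    {op : (Fin r → ℤ) → (Fin r → ℤ)} (hop : ∀ χ, OnF W L lam χ → OnF W L lam (op χ) ∧
      β χ (op χ) = 0) {χ0 : Fin r → ℤ} (hχ0 : OnF W L lam χ0) {ω : Fin r → ℤ} (hω : ω ∈ W)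
    (hL : L ω = L lam) (hne : ∀ χ, OnF W L lam χ → ω ≠ χ) : (2 : ℤ) • ω = χ0 + op χ0 := by
  classical
  have hN := C.N0
  have hσ : ∀ χ, OnF W L lam χ → χ + op χ = χ0 + op χ0 := fun χ hχ =>
    C.sum_eq hv hχ (hop χ hχ).1 (hop χ hχ).2 hχ0 (hop χ0 hχ0).1 (hop χ0 hχ0).2
  have hVfin : {χ | OnF W L lam χ}.Finite := C.fin.subset fun χ hχ => hχ.1.1
  have hVb : ∀ χ, OnF W L lam χ → β χ ω = N := fun χ hχ =>
    C.b_ne hv hχ (hop χ hχ).1 (hop χ hχ).2 hω hL (hne χ hχ) (hne _ (hop χ hχ).1)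
  have key : ∀ f : (Fin r → ℤ) →+ ℤ, f (χ0 + op χ0) ≤ f ((2 : ℤ) • ω) := by
    intro f
    let G : (Fin r → ℤ) →+ ℤ :=
      (4 * N) • f + ∑ χ ∈ hVfin.toFinset, (-(f χ)) • (β χ - β (op χ))
    have hG : ∀ m, G m = 4 * N * f m - ∑ χ ∈ hVfin.toFinset, f χ * (β χ m - β (op χ) m) := by
      intro m
      simp only [G]
      rw [AddMonoidHom.add_apply, AddMonoidHom.smul_apply, smul_eq_mul,
        AddMonoidHom.finsetSum_apply, sub_eq_add_neg, ← Finset.sum_neg_distrib]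
      congr 1
      refine Finset.sum_congr rfl fun χ _ => ?_
      rw [AddMonoidHom.smul_apply, AddMonoidHom.sub_apply, smul_eq_mul, neg_mul]
    have hGω : G ω = 4 * N * f ω := by
      rw [hG, Finset.sum_eq_zero, sub_zero]
      intro χ hχ
      have hχ' : OnF W L lam χ := hVfin.mem_toFinset.1 hχ
      rw [hVb χ hχ', hVb _ (hop χ hχ').1, sub_self, mul_zero]
    have hGv : ∀ u, OnF W L lam u → G u = 2 * N * f (χ0 + op χ0) := by
      intro u hu
      have hu' := (hop u hu).1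
      have hu0 := (hop u hu).2
      have huu : u ≠ op u := by
        intro h
        rw [← h, (C.R u hu.1).two] at hu0
        omega
      have hopop : op (op u) = u := (C.eq_opp hv hu' (hop _ hu').1 (hop _ hu').2 hu.1.1 hu.2
        (C.symm_zero hu hu' hu0)).symm
      have hsum : ∑ χ ∈ hVfin.toFinset, f χ * (β χ u - β (op χ) u) =
          2 * N * f u - 2 * N * f (op u) := by
        rw [← Finset.sum_subset (s₁ := {u, op u})]
        · rw [Finset.sum_pair huu, (C.R u hu.1).two, hopop, (C.R u hu.1).two,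
            C.symm_zero hu hu' hu0]
          ring
        · intro χ hχ
          rw [Finset.mem_insert, Finset.mem_singleton] at hχ
          rcases hχ with rfl | rfl
          · exact hVfin.mem_toFinset.2 hu
          · exact hVfin.mem_toFinset.2 hu'
        · intro χ hχ hχn
          have hχ' : OnF W L lam χ := hVfin.mem_toFinset.1 hχ
          rw [Finset.mem_insert, Finset.mem_singleton, not_or] at hχn
          have hχo := (hop χ hχ').1
          have h1 : u ≠ op χ := by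
            intro h
            apply hχn.2
            rw [h]
            exact (C.eq_opp hv hχo (hop _ hχo).1 (hop _ hχo).2 hχ'.1.1 hχ'.2
              (C.symm_zero hχ' hχo (hop χ hχ').2))
          have h2 : β χ u = N := C.b_ne hv hχ' hχo (hop χ hχ').2 hu.1.1 hu.2
            (Ne.symm hχn.1) h1
          have h3 : β (op χ) u = N := C.b_ne hv hχo hχ'
            (C.symm_zero hχ' hχo (hop χ hχ').2) hu.1.1 hu.2 h1 (Ne.symm hχn.1)
          rw [h2, h3, sub_self, mul_zero]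
      rw [hG, hsum, ← hσ u hu, map_add]
      ring
    -- `G` attains its minimum over the face at a vertex
    obtain ⟨u, hu, hmax⟩ := C.exists_on (-G)
    have h1 := hmax ω hω hL
    rw [AddMonoidHom.neg_apply, AddMonoidHom.neg_apply, hGv u hu, hGω] at h1
    rw [map_zsmul, smul_eq_mul]
    have h2 : (2 * N) * f (χ0 + op χ0) ≤ (2 * N) * (2 * f ω) := by linarith
    exact le_of_mul_le_mul_left h2 (by omega)
  exact (ext_of_le key).symm

/-- The difference of two vertices of different pairs is the only weight where `β χ - β ψ` is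
`2 N`. -/
theorem Ctx.eq_sub (C : Ctx W N β lam L) {χ ψ : Fin r → ℤ}
    (hχ : OnF W L lam χ) (hψ : OnF W L lam ψ) (h1 : β χ ψ = N) (h2 : β ψ χ = N) {μ : Fin r → ℤ}
    (hμ : μ ∈ W) (h : β χ μ - β ψ μ = 2 * N) : μ = χ - ψ := by
  have hN := C.N0
  have hRχ := C.R χ hχ.1
  have hRψ := C.R ψ hψ.1
  have happ : ∀ m, (β χ - β ψ) m = β χ m - β ψ m := fun m => AddMonoidHom.sub_apply _ _ _
  -- the values on the weights
  have hval : ∀ ω ∈ W, β χ ω - β ψ ω ≤ 2 * N ∧ (β χ ω - β ψ ω = 2 * N → β χ ω = N ∧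
      β ψ ω = -N) := by
    intro ω hω
    by_cases e1 : ω = χ
    · rw [e1, h2, hRχ.two]
      omega
    by_cases e2 : ω = -χ
    · rw [e2, map_neg, map_neg, h2, hRχ.two]
      omega
    by_cases e3 : ω = ψ
    · rw [e3, h1, hRψ.two]
      omega
    by_cases e4 : ω = -ψ
    · rw [e4, map_neg, map_neg, h1, hRψ.two]
      omega
    have h3 := abs_le.1 (hRχ.bd ω hω e1 e2)
    have h4 := abs_le.1 (hRψ.bd ω hω e3 e4)
    omega
  have key : ∀ f : (Fin r → ℤ) →+ ℤ, f μ ≤ f (χ - ψ) := by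
    intro f
    obtain ⟨v, hv1, hv2, hv3⟩ := exists_vertex C.fin (f0 := β χ - β ψ) hμ
      (by rw [happ, h]; omega) (fun ω hω => by
        rw [happ, happ, h]
        exact (hval ω hω).1) f
    rw [happ, happ, h] at hv2
    obtain ⟨w1, w2⟩ := (hval v hv1.1).2 hv2
    have r1 := hRχ.refl C.fin hN hv1 (k := 1) (by rw [w1, mul_one])
    rw [one_smul] at r1
    have h3 : β ψ (v - χ) = -(2 * N) := by
      rw [map_sub, w2, h2]
      ring
    have h4 : v - χ = -ψ := by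
      by_contra hne
      by_cases h5 : v - χ = ψ
      · rw [h5, hRψ.two] at h3
        omega
      · have h6 := abs_le.1 (hRψ.bd _ r1.1 h5 hne)
        omega
    have h5 : v = χ - ψ := by
      rw [sub_eq_iff_eq_add] at h4
      rw [h4]
      abel
    rw [← h5]
    exact hv3 μ hμ rfl
  exact ext_of_le key

end Vale.Agent.P280.H340
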