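import Vale.Agent.P280.H340.FaceB
import Vale.Agent.P280.N.Defs

/-! P280, plan N: enumeration of the vertices of the face, and the functional `L0`. -/

namespace Vale.Agent.P280.H340

open Vale.Agent.P280.N

variable {r : ℕ} {W : Set (Fin r → ℤ)} {N : ℤ} {β : (Fin r → ℤ) → ((Fin r → ℤ) →+ ℤ)}
  {lam : Fin r → ℤ} {L : (Fin r → ℤ) →+ ℤ}

theorem vx_true (lam : Fin r → ℤ) {m : ℕ} (e : Fin m → Fin r → ℤ) (j : Fin m) :
    vx lam e j true = lam + e j := by
  simp [vx, sg]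

theorem vx_false (lam : Fin r → ℤ) {m : ℕ} (e : Fin m → Fin r → ℤ) (j : Fin m) :
    vx lam e j false = lam - e j := by
  simp [vx, sg, sub_eq_add_neg]

/-- A face: the combinatorial part, relative to `L`. -/
structure Fc (W : Set (Fin r → ℤ)) (N : ℤ) (β : (Fin r → ℤ) → ((Fin r → ℤ) →+ ℤ))
    (lam : Fin r → ℤ) (L : (Fin r → ℤ) →+ ℤ) (m : ℕ) (e : Fin m → Fin r → ℤ) : Prop where
  on : ∀ j s, OnF W L lam (vx lam e j s)
  top : ∀ ω ∈ W, L ω = L lam → ω = lam ∨ ∃ j s, ω = vx lam e j s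
  lze : ∀ j, L (e j) = 0
  bl : ∀ j s, β (vx lam e j s) lam = N
  be : ∀ j s i, β (vx lam e j s) (e i) = if i = j then sg s * N else 0
  m0 : m ≠ 0

theorem exists_enum (C : Ctx W N β lam L) (hv : NV W L lam) :
    ∃ (m : ℕ) (e : Fin m → Fin r → ℤ), Fc W N β lam L m e := by
  classical
  have hN := C.N0
  obtain ⟨op, hop⟩ := C.exists_opp_fun hv
  obtain ⟨χ0, hχ0, -⟩ := C.exists_on 0
  obtain ⟨g, hg⟩ := H587.exists_generic C.fin
  have hlam2 : ∀ χ, OnF W L lam χ → (2 : ℤ) • lam = χ + op χ := fun χ hχ =>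
    C.two_smul hv hop hχ C.mem rfl hv
  have hopop : ∀ χ, OnF W L lam χ → op (op χ) = χ := fun χ hχ =>
    (C.eq_opp hv (hop χ hχ).1 (hop _ (hop χ hχ).1).1 (hop _ (hop χ hχ).1).2 hχ.1.1 hχ.2
      (C.symm_zero hχ (hop χ hχ).1 (hop χ hχ).2)).symm
  have hne : ∀ χ, OnF W L lam χ → χ ≠ op χ := by
    intro χ hχ h
    have h1 := (hop χ hχ).2
    rw [← h, (C.R χ hχ.1).two] at h1
    omega
  have hVfin : {χ | OnF W L lam χ ∧ g (op χ) < g χ}.Finite := C.fin.subset fun χ hχ => hχ.1.1.1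
  obtain ⟨m, c, hc1, hc2⟩ : ∃ (m : ℕ) (c : Fin m → Fin r → ℤ), Function.Injective c ∧
      ∀ χ, (∃ j, c j = χ) ↔ (OnF W L lam χ ∧ g (op χ) < g χ) := by
    let s := hVfin.toFinset
    refine ⟨s.card, fun j => (s.equivFin.symm j : Fin r → ℤ), ?_, fun χ => ⟨?_, fun h => ?_⟩⟩
    · intro a b hab
      exact s.equivFin.symm.injective (Subtype.ext hab)
    · rintro ⟨j, rfl⟩
      exact hVfin.mem_toFinset.1 (s.equivFin.symm j).2
    · refine ⟨s.equivFin ⟨χ, hVfin.mem_toFinset.2 h⟩, ?_⟩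
      simp only [Equiv.symm_apply_apply]
  have hcO : ∀ j, OnF W L lam (c j) := fun j => ((hc2 _).1 ⟨j, rfl⟩).1
  have hcg : ∀ j, g (op (c j)) < g (c j) := fun j => ((hc2 _).1 ⟨j, rfl⟩).2
  have hvt : ∀ j, vx lam (fun j => c j - lam) j true = c j := fun j => by
    rw [vx_true]
    abel
  have hvf : ∀ j, vx lam (fun j => c j - lam) j false = op (c j) := fun j => by
    rw [vx_false]
    have h1 := hlam2 _ (hcO j)
    rw [two_smul] at h1
    have h2 : op (c j) = lam + lam - c j := by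
      rw [h1]
      abel
    rw [h2]
    abel
  have hon : ∀ j s, OnF W L lam (vx lam (fun j => c j - lam) j s) := by
    intro j s
    cases s
    · rw [hvf]
      exact (hop _ (hcO j)).1
    · rw [hvt]
      exact hcO j
  have hvert : ∀ χ, OnF W L lam χ → ∃ j s, χ = vx lam (fun j => c j - lam) j s := by
    intro χ hχ
    rcases lt_trichotomy (g (op χ)) (g χ) with h | h | h
    · obtain ⟨j, hj⟩ := (hc2 χ).2 ⟨hχ, h⟩
      exact ⟨j, true, by rw [hvt, hj]⟩
    · exact absurd (hg hχ.1.1 (hop χ hχ).1.1.1 h.symm) (hne χ hχ)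
    · have h1 := (hop χ hχ).1
      obtain ⟨j, hj⟩ := (hc2 (op χ)).2 ⟨h1, by rw [hopop χ hχ]; exact h⟩
      exact ⟨j, false, by rw [hvf, hj, hopop χ hχ]⟩
  have hcc : ∀ i j, i ≠ j → c i ≠ c j ∧ c i ≠ op (c j) := by
    intro i j hij
    refine ⟨fun h => hij (hc1 h), fun h => ?_⟩
    have h1 := hcg i
    have h2 := hcg j
    rw [h, hopop _ (hcO j)] at h1
    omega
  refine ⟨m, fun j => c j - lam, ⟨hon, ?_, ?_, ?_, ?_, ?_⟩⟩
  · intro ω hω hL
    by_cases h : ∃ χ, OnF W L lam χ ∧ ω = χ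
    · obtain ⟨χ, hχ, rfl⟩ := h
      exact Or.inr (hvert _ hχ)
    · left
      have h1 := C.two_smul hv hop hχ0 hω hL (fun χ hχ h2 => h ⟨χ, hχ, h2⟩)
      rw [← hlam2 χ0 hχ0] at h1
      funext i
      have h2 := congrFun h1 i
      simp only [Pi.smul_apply, smul_eq_mul] at h2
      omega
  · intro j
    rw [map_sub, (hcO j).2, sub_self]
  · intro j s
    exact C.b_lam hv (hon j s)
  · intro j s i
    rw [map_sub, C.b_lam hv (hon j s)]
    by_cases hij : i = j
    · subst hij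
      rw [if_pos rfl]
      cases s
      · rw [hvf, C.symm_zero (hcO i) (hop _ (hcO i)).1 (hop _ (hcO i)).2]
        simp [sg]
      · rw [hvt, (C.R _ (hcO i).1).two]
        simp [sg]
        ring
    · rw [if_neg hij]
      obtain ⟨h1, h2⟩ := hcc i j hij
      have h3 : β (vx lam (fun j => c j - lam) j s) (c i) = N := by
        cases s
        · rw [hvf]
          exact C.b_ne hv (hop _ (hcO j)).1 (hcO j)
            (C.symm_zero (hcO j) (hop _ (hcO j)).1 (hop _ (hcO j)).2) (hcO i).1.1 (hcO i).2 h2 h1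
        · rw [hvt]
          exact C.b_ne hv (hcO j) (hop _ (hcO j)).1 (hop _ (hcO j)).2 (hcO i).1.1 (hcO i).2 h1 h2
      rw [h3, sub_self]
  · intro h0
    subst h0
    obtain ⟨j, -⟩ := hvert χ0 hχ0
    exact j.elim0

/-- A functional killing the `e j` and no weight outside their rational span. -/
theorem exists_avoid {T : Set (Fin r → ℤ)} (hT : T.Finite) (A : AddSubgroup ((Fin r → ℤ) →+ ℤ))
    (h : ∀ μ ∈ T, ∃ f ∈ A, f μ ≠ 0) : ∃ f ∈ A, ∀ μ ∈ T, f μ ≠ 0 := by
  classical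
  induction T, hT using Set.Finite.induction_on with
  | empty => exact ⟨0, A.zero_mem, fun μ hμ => absurd hμ (Set.notMem_empty μ)⟩
  | @insert a S ha hS ih =>
    obtain ⟨f, hf, hf0⟩ := ih fun μ hμ => h μ (Set.mem_insert_of_mem _ hμ)
    by_cases h0 : f a = 0
    · obtain ⟨g, hg, hg0⟩ := h a (Set.mem_insert _ _)
      obtain ⟨K, hK0, hK⟩ := exists_bd hS g
      refine ⟨(2 * K + 1) • f + g, A.add_mem (A.zsmul_mem hf _) hg, fun μ hμ => ?_⟩
      rw [smul_add_apply]
      rcases Set.mem_insert_iff.1 hμ with rfl | hμ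
      · rw [h0, mul_zero, zero_add]
        exact hg0
      · intro h1
        have h2 := hK μ hμ
        rcases lt_or_gt_of_ne (hf0 μ hμ) with h3 | h3
        · have : f μ ≤ -1 := by omega
          nlinarith
        · have : 1 ≤ f μ := by omega
          nlinarith
    · refine ⟨f, hf, fun μ hμ => ?_⟩
      rcases Set.mem_insert_iff.1 hμ with rfl | hμ
      · exact h0
      · exact hf0 μ hμ

end Vale.Agent.P280.H340
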