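import Vale.Agent.P280.H340.FaceC

/-! P280, plan N: the functional `L0` of a face, which kills only weights in the span of the
`e j`, and the classification of these weights. -/

namespace Vale.Agent.P280.H340

open Vale.Agent.P280.N

variable {r : ℕ} {W : Set (Fin r → ℤ)} {N : ℤ} {β : (Fin r → ℤ) → ((Fin r → ℤ) →+ ℤ)}
  {lam : Fin r → ℤ} {L : (Fin r → ℤ) →+ ℤ}

theorem clear_den {n : ℕ} (q : Fin n → ℚ) :
    ∃ D : ℤ, 0 < D ∧ ∃ z : Fin n → ℤ, ∀ i, (z i : ℚ) = D * q i := by
  classical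
  refine ⟨∏ i, ((q i).den : ℤ), Finset.prod_pos fun i _ => by exact_mod_cast (q i).den_pos,
    fun i => (∏ j ∈ Finset.univ.erase i, ((q j).den : ℤ)) * (q i).num, fun i => ?_⟩
  rw [← Finset.mul_prod_erase Finset.univ _ (Finset.mem_univ i)]
  push_cast
  have h1 : ((q i).den : ℚ) * q i = (q i).num := by
    rw [mul_comm]
    exact Rat.mul_den_eq_num (q i)
  rw [← h1]
  ring

/-- A weight outside the rational span of the `e j` is separated from them. -/
theorem exists_kill {m : ℕ} (e : Fin m → Fin r → ℤ) (μ : Fin r → ℤ)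
    (h : ¬ ∃ (k : ℤ) (a : Fin m → ℤ), k ≠ 0 ∧ k • μ = ∑ j, a j • e j) :
    ∃ f : (Fin r → ℤ) →+ ℤ, (∀ j, f (e j) = 0) ∧ f μ ≠ 0 := by
  classical
  let c : (Fin r → ℤ) → (Fin r → ℚ) := fun m i => (m i : ℚ)
  by_cases hm : c μ ∈ Submodule.span ℚ (Set.range fun j => c (e j))
  · exfalso
    rw [Submodule.mem_span_range_iff_exists_fun] at hm
    obtain ⟨q, hq⟩ := hm
    obtain ⟨D, hD, z, hz⟩ := clear_den q
    refine h ⟨D, z, hD.ne', ?_⟩
    funext i
    have h1 := congrFun hq i
    simp only [c, Finset.sum_apply, Pi.smul_apply, smul_eq_mul] at h1 ⊢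
    have h2 : ((D * μ i : ℤ) : ℚ) = ((∑ j, z j * e j i : ℤ) : ℚ) := by
      push_cast
      rw [← h1, Finset.mul_sum]
      refine Finset.sum_congr rfl fun j _ => ?_
      rw [hz j]
      ring
    exact_mod_cast h2
  · obtain ⟨φ, hφ1, hφ2⟩ := Submodule.exists_dual_map_eq_bot_of_notMem hm inferInstance
    obtain ⟨D, hD, z, hz⟩ := clear_den fun i : Fin r => φ (Pi.single i 1)
    let f : (Fin r → ℤ) →+ ℤ :=
      { toFun := fun m => ∑ i, z i * m i
        map_zero' := by simp
        map_add' := fun a b => by simp [mul_add, Finset.sum_add_distrib] }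
    have hf : ∀ m, ((f m : ℤ) : ℚ) = D * φ (c m) := by
      intro m
      have h1 : φ (c m) = ∑ i, c m i • φ (Pi.single i 1) := by
        conv_lhs => rw [pi_eq_sum_univ (c m)]
        rw [map_sum]
        refine Finset.sum_congr rfl fun i _ => ?_
        rw [map_smul]
        congr 2
        funext j
        simp [Pi.single_apply, eq_comm]
      change ((∑ i, z i * m i : ℤ) : ℚ) = _
      rw [h1, Finset.mul_sum]
      push_cast
      refine Finset.sum_congr rfl fun i _ => ?_
      rw [hz i, smul_eq_mul]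
      simp only [c]
      ring
    refine ⟨f, fun j => ?_, fun h0 => hφ1 ?_⟩
    · have h1 : φ (c (e j)) = 0 := by
        have h2 : φ (c (e j)) ∈ Submodule.map φ
            (Submodule.span ℚ (Set.range fun j => c (e j))) :=
          Submodule.mem_map_of_mem (Submodule.subset_span ⟨j, rfl⟩)
        rw [hφ2] at h2
        exact (Submodule.mem_bot ℚ).1 h2
      have h2 := hf (e j)
      rw [h1, mul_zero] at h2
      exact_mod_cast h2
    · have h2 := hf μ
      rw [h0, Int.cast_zero] at h2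
      rcases mul_eq_zero.1 h2.symm with h3 | h3
      · exact absurd (by exact_mod_cast h3) hD.ne'
      · exact h3

theorem map_vx (f : (Fin r → ℤ) →+ ℤ) {m : ℕ} {e : Fin m → Fin r → ℤ} (j : Fin m) (s : Bool) :
    f (vx lam e j s) = f lam + sg s * f (e j) := by
  rw [vx, map_add, map_zsmul, smul_eq_mul]

theorem Fc.exists_L0 (C : Ctx W N β lam L) {m : ℕ} {e : Fin m → Fin r → ℤ}
    (h : Fc W N β lam L m e) : ∃ L0 : (Fin r → ℤ) →+ ℤ, 0 < L0 lam ∧
      (∀ ω ∈ W, L0 ω ≤ L0 lam) ∧ (∀ ω ∈ W, L0 ω = L0 lam → L ω = L lam) ∧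
      (∀ j, L0 (e j) = 0) ∧ ∀ μ ∈ W, L0 μ = 0 →
        ∃ (k : ℤ) (a : Fin m → ℤ), k ≠ 0 ∧ k • μ = ∑ j, a j • e j := by
  classical
  let A : AddSubgroup ((Fin r → ℤ) →+ ℤ) :=
    { carrier := {f | ∀ j, f (e j) = 0}
      zero_mem' := fun j => rfl
      add_mem' := fun {a b} ha hb j => by
        change a (e j) + b (e j) = 0
        rw [ha j, hb j, add_zero]
      neg_mem' := fun {a} ha j => by
        change -(a (e j)) = 0
        rw [ha j, neg_zero] }
  have hT : {μ | μ ∈ W ∧ ¬ ∃ (k : ℤ) (a : Fin m → ℤ), k ≠ 0 ∧ k • μ = ∑ j, a j • e j}.Finite :=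
    C.fin.subset fun μ hμ => hμ.1
  obtain ⟨f, hf, hf0⟩ := exists_avoid hT A fun μ hμ => by
    obtain ⟨f, h1, h2⟩ := exists_kill e μ hμ.2
    exact ⟨f, h1, h2⟩
  have hfe : ∀ j, f (e j) = 0 := hf
  obtain ⟨K, hK0, hK⟩ := exists_bd C.fin f
  obtain ⟨L0, hL0⟩ : ∃ L0 : (Fin r → ℤ) →+ ℤ, ∀ m, L0 m = (2 * K + 1) * L m + f m :=
    ⟨(2 * K + 1) • L + f, fun m => smul_add_apply _ _ _ _⟩
  have hface : ∀ ω ∈ W, L ω = L lam → f ω = f lam := by
    intro ω hω hL
    rcases h.top ω hω hL with rfl | ⟨j, s, rfl⟩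
    · rfl
    · rw [map_vx, hfe, mul_zero, add_zero]
  have hpos := C.pos
  have hlt : ∀ ω ∈ W, L ω ≠ L lam → L0 ω < L0 lam := by
    intro ω hω hne
    have h1 : L ω + 1 ≤ L lam := by
      have := C.max ω hω
      omega
    have h2 := hK ω hω
    have h3 := hK lam C.mem
    rw [hL0, hL0]
    nlinarith
  refine ⟨L0, ?_, fun ω hω => ?_, fun ω hω h0 => ?_, fun j => ?_, fun μ hμ h0 => ?_⟩
  · rw [hL0]
    have h3 := hK lam C.mem
    nlinarith
  · by_cases hL : L ω = L lam
    · rw [hL0, hL0, hL, hface ω hω hL]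
    · exact (hlt ω hω hL).le
  · by_contra hne
    exact (hlt ω hω hne).ne h0
  · rw [hL0, h.lze, hfe, mul_zero, add_zero]
  · by_contra hno
    have h1 := hf0 μ ⟨hμ, hno⟩
    have h2 := hK μ hμ
    rw [hL0] at h0
    by_cases h3 : L μ = 0
    · rw [h3, mul_zero, zero_add] at h0
      exact h1 h0
    · rcases lt_or_gt_of_ne h3 with h4 | h4
      · have : L μ ≤ -1 := by omega
        nlinarith
      · have : 1 ≤ L μ := by omega
        nlinarith

theorem eps_cases {N x : ℤ} (hN : 0 < N) (hd : N ∣ x) (h : |x| ≤ N) :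
    ∃ ε : ℤ, x = ε * N ∧ (ε = 0 ∨ ∃ s, ε = sg s) := by
  obtain ⟨k, rfl⟩ := hd
  obtain ⟨h1, h2⟩ := abs_le.1 h
  have h3 : -1 ≤ k := by
    by_contra h
    have : k ≤ -2 := by omega
    nlinarith
  have h4 : k ≤ 1 := by
    by_contra h
    have : 2 ≤ k := by omega
    nlinarith
  refine ⟨k, mul_comm _ _, ?_⟩
  have h5 : k = 0 ∨ k = 1 ∨ k = -1 := by omega
  rcases h5 with rfl | rfl | rfl
  · exact Or.inl rfl
  · exact Or.inr ⟨true, by simp [sg]⟩
  · exact Or.inr ⟨false, by simp [sg]⟩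

theorem sg_mul_sg (s : Bool) : sg s * sg s = 1 := by
  cases s <;> simp [sg]

theorem sg_not (s : Bool) : sg (!s) = -sg s := by
  cases s <;> simp [sg]

/-- The classification of the weights killed by `L0`. -/
theorem Fc.classify (C : Ctx W N β lam L) {m : ℕ} {e : Fin m → Fin r → ℤ}
    (h : Fc W N β lam L m e) (h00 : (0 : Fin r → ℤ) ∉ W) {L0 : (Fin r → ℤ) →+ ℤ}
    (hpos : 0 < L0 lam) (hlze : ∀ j, L0 (e j) = 0) {μ : Fin r → ℤ} (hμ : μ ∈ W)
    (h0 : L0 μ = 0) {k : ℤ} {a : Fin m → ℤ} (hk : k ≠ 0) (hka : k • μ = ∑ j, a j • e j) :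
    (∃ j s, μ = sg s • e j) ∨
      ∃ i j s s', i ≠ j ∧ μ = sg s • e i + sg s' • e j := by
  classical
  have hN := C.N0
  have hLv : ∀ j s, L0 (vx lam e j s) = L0 lam := fun j s => by
    rw [map_vx, hlze, mul_zero, add_zero]
  have hch : ∀ j, ∃ ε : ℤ, β (vx lam e j true) μ = ε * N ∧ (ε = 0 ∨ ∃ s, ε = sg s) := by
    intro j
    have hR := C.R _ (h.on j true).1
    refine eps_cases hN (hR.int μ hμ) (hR.bd μ hμ ?_ ?_)
    · intro h1
      have h2 := hLv j true
      rw [← h1, h0] at h2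
      omega
    · intro h1
      have h2 := hLv j true
      rw [h1, map_neg] at h0
      omega
  choose ε hε1 hε2 using hch
  have hae : ∀ j, a j = k * ε j := by
    intro j
    have h1 := congrArg (β (vx lam e j true)) hka
    rw [map_zsmul, smul_eq_mul, hε1, map_sum, Finset.sum_eq_single j] at h1
    · rw [map_zsmul, smul_eq_mul, h.be, if_pos rfl] at h1
      have h2 : sg true = 1 := rfl
      rw [h2, one_mul] at h1
      have h3 : (k * ε j) * N = a j * N := by linarith
      exact (mul_right_cancel₀ hN.ne' h3).symm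
    · intro i _ hij
      rw [map_zsmul, smul_eq_mul, h.be, if_neg hij, mul_zero]
    · intro hj
      exact absurd (Finset.mem_univ j) hj
  have hμe : μ = ∑ j, ε j • e j := by
    have h1 : k • μ = k • ∑ j, ε j • e j := by
      rw [hka, Finset.smul_sum]
      refine Finset.sum_congr rfl fun j _ => ?_
      rw [hae j, mul_smul]
    funext i
    have h2 := congrFun h1 i
    simp only [Pi.smul_apply, smul_eq_mul] at h2
    exact mul_left_cancel₀ hk h2
  have hval : ∀ j s, β (vx lam e j s) μ = ε j * (sg s * N) := by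
    intro j s
    conv_lhs => rw [hμe]
    rw [map_sum, Finset.sum_eq_single j]
    · rw [map_zsmul, smul_eq_mul, h.be, if_pos rfl]
    · intro i _ hij
      rw [map_zsmul, smul_eq_mul, h.be, if_neg hij, mul_zero]
    · intro hj
      exact absurd (Finset.mem_univ j) hj
  by_cases hz : ∀ j, ε j = 0
  · exfalso
    apply h00
    have h1 : μ = 0 := by
      rw [hμe]
      exact Finset.sum_eq_zero fun j _ => by rw [hz j, zero_smul]
    rwa [h1] at hμ
  · rw [not_forall] at hz
    obtain ⟨i, hi⟩ := hz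
    obtain ⟨s, hs⟩ := (hε2 i).resolve_left hi
    by_cases hj : ∃ j, j ≠ i ∧ ε j ≠ 0
    · obtain ⟨j, hji, hj0⟩ := hj
      obtain ⟨s', hs'⟩ := (hε2 j).resolve_left hj0
      right
      refine ⟨i, j, s, s', hji.symm, ?_⟩
      have h1 : β (vx lam e i s) (vx lam e j (!s')) = N := by
        rw [map_vx, h.bl, h.be, if_neg hji, mul_zero, add_zero]
      have h2 : β (vx lam e j (!s')) (vx lam e i s) = N := by
        rw [map_vx, h.bl, h.be, if_neg hji.symm, mul_zero, add_zero]
      have h3 : β (vx lam e i s) μ - β (vx lam e j (!s')) μ = 2 * N := by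
        rw [hval, hval, hs, hs', sg_not]
        have h4 := sg_mul_sg s
        have h5 := sg_mul_sg s'
        linear_combination N * h4 + N * h5
      have h4 := C.eq_sub (h.on i s) (h.on j (!s')) h1 h2 hμ h3
      rw [h4, vx, vx, sg_not, neg_smul]
      abel
    · left
      refine ⟨i, s, ?_⟩
      rw [hμe, Finset.sum_eq_single i, hs]
      · intro j _ hji
        have h1 : ε j = 0 := by
          by_contra h1
          exact hj ⟨j, hji, h1⟩
        rw [h1, zero_smul]
      · intro hi'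
        exact absurd (Finset.mem_univ i) hi'

end Vale.Agent.P280.H340
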