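import Vale.Agent.P280.H340.FaceD

/-! P280, plan N: existence of the face of a boundary weight, from the sl2's of the vertices. -/

open DirectSum Vale.Agent.P280.T Vale.Agent.P280.H127 Vale.Agent.P280.N

namespace Vale.Agent.P280.H340

variable {r : ℕ} {R : Type} [CommRing R] [IsDomain R] [Algebra ℂ R]
  {𝒜 : ℕ × (Fin r → ℤ) → Submodule ℂ R} [GradedAlgebra 𝒜]

omit [IsDomain R] in
/-- The set of tangent weights is finite. -/
theorem wt_finite (hX : IsTorusManifold 𝒜) : {ω | Wt 𝒜 ω}.Finite := by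
  have hfin : (H587.wts 𝒜).Finite := finite_weights hX
  refine (hfin.image2 (fun a b => a - b) hfin).subset ?_
  rintro ω ⟨y, hy⟩
  obtain ⟨h1, h2⟩ := H587.tangentWeight_mem hX y.nv y.fix hy
  refine ⟨y.ν + ω, h2, y.ν, h1, ?_⟩
  change y.ν + ω - y.ν = ω
  rw [add_sub_cancel_left]

theorem exists_face_of_roots (H : Hyp 𝒜) {N : ℤ} (hN : 0 < N)
    (hroots : ∀ χ, Vx 𝒜 χ → ∃ β E F, Root 𝒜 N χ β E F) {lam : Fin r → ℤ} (hw : Wt 𝒜 lam)
    (l : (Fin r → ℤ) →+ ℤ) (hl : 0 < l lam) (hmax : ∀ ω, Wt 𝒜 ω → l ω ≤ l lam) :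
    (∃ (l' : (Fin r → ℤ) →+ ℤ) (δ : Fin r → ℤ), 0 < l' lam ∧ ∀ ω, Wt 𝒜 ω → l' ω ≤ l' lam ∧
      (l' ω = l' lam → ∃ a b : ℤ, b ≠ 0 ∧ b • (ω - lam) = a • δ)) ∨
    ∃ m e L0 β E F, Face 𝒜 N lam m e L0 β E F := by
  classical
  choose β' E' F' hR' using hroots
  let β : (Fin r → ℤ) → ((Fin r → ℤ) →+ ℤ) := fun χ =>
    if h : Vx 𝒜 χ then β' χ h else 0
  let E : (Fin r → ℤ) → VF R := fun χ => if h : Vx 𝒜 χ then E' χ h else 0
  let F : (Fin r → ℤ) → VF R := fun χ => if h : Vx 𝒜 χ then F' χ h else 0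
  have hR : ∀ χ, Vx 𝒜 χ → Root 𝒜 N χ (β χ) (E χ) (F χ) := by
    intro χ hχ
    have h1 : β χ = β' χ hχ := dif_pos hχ
    have h2 : E χ = E' χ hχ := dif_pos hχ
    have h3 : F χ = F' χ hχ := dif_pos hχ
    rw [h1, h2, h3]
    exact hR' χ hχ
  have hW : {ω | Wt 𝒜 ω}.Finite := wt_finite H.hX
  have hRt : ∀ χ, IsVx {ω | Wt 𝒜 ω} χ → Rt {ω | Wt 𝒜 ω} N χ (β χ) := fun χ hχ => by
    have h := hR χ hχ
    exact ⟨h.two, h.int, h.bd, h.hull⟩
  have h00 : (0 : Fin r → ℤ) ∉ {ω | Wt 𝒜 ω} := by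
    rintro ⟨y, hy⟩
    exact H.iso y.q y.ν y.nv y.fix hy
  obtain ⟨L, C⟩ := exists_ctx hW hN hRt (show lam ∈ {ω | Wt 𝒜 ω} from hw) hl hmax
  by_cases hv : NV {ω | Wt 𝒜 ω} L lam
  · obtain ⟨m, e, hF⟩ := exists_enum C hv
    have hm : m = 1 ∨ 2 ≤ m := by
      have := hF.m0
      omega
    rcases hm with rfl | hm
    · left
      refine ⟨L, e 0, C.pos, fun ω hω => ⟨C.max ω hω, fun h => ?_⟩⟩
      rcases hF.top ω hω h with rfl | ⟨j, s, rfl⟩
      · exact ⟨0, 1, one_ne_zero, by simp⟩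
      · refine ⟨sg s, 1, one_ne_zero, ?_⟩
        have hj : j = 0 := Subsingleton.elim _ _
        rw [hj, vx, one_smul, add_sub_cancel_left]
    · right
      obtain ⟨L0, h1, h2, h3, h4, h5⟩ := hF.exists_L0 C
      refine ⟨m, e, L0, fun j s => β (vx lam e j s), fun j s => E (vx lam e j s),
        fun j s => F (vx lam e j s), ?_⟩
      exact
        { N0 := hN
          m2 := hm
          wt := hw
          pos := h1
          max := h2
          top := fun ω hω h => hF.top ω hω (h3 ω hω h)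
          lze := h4
          root := fun j s => hR _ (hF.on j s).1
          bl := hF.bl
          be := hF.be
          S := fun μ hμ h0 => by
            obtain ⟨k, a, hk, hka⟩ := h5 μ hμ h0
            exact hF.classify C h00 h1 h4 hμ h0 hk hka }
  · left
    rw [NV] at hv
    push Not at hv
    obtain ⟨χ, ⟨⟨-, l1, hl1, hl2⟩, -⟩, rfl⟩ := hv
    refine ⟨l1, 0, hl1, fun ω hω => ?_⟩
    by_cases hne : ω = lam
    · subst hne
      exact ⟨le_rfl, fun _ => ⟨0, 1, one_ne_zero, by simp⟩⟩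
    · have h1 := hl2 ω hω hne
      exact ⟨h1.le, fun h => absurd h h1.ne⟩

end Vale.Agent.P280.H340
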