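import Vale.Agent.P280.N2.Two

/-! P280, stage 2: the second field, from the interpolation of poles. -/

open DirectSum Vale.Agent.P280.T Vale.Agent.P280.H127 Vale.Agent.P280.N Vale.Agent.P280.N.H989
open Vale.Agent.P280.N2

namespace Vale.Agent.P280.H340

variable {r : ℕ} {R : Type} [CommRing R] [IsDomain R] [Algebra ℂ R]
  {𝒜 : ℕ × (Fin r → ℤ) → Submodule ℂ R} [GradedAlgebra 𝒜]

/-- A global homogeneous field with nonzero value: a homogeneous test function. -/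
theorem exists_test {q : FP 𝒜} {D : Derivation ℂ R R} (h : ¬ ValV q.q (toVF D) 0) :
    ∃ (d : ℕ) (m : Fin r → ℤ) (a : R), a ∈ 𝒜 (d, m) ∧ q.q (D a) ≠ 0 := by
  by_contra hcon
  push Not at hcon
  refine h fun a => ?_
  rw [toVF_iK, LinearMap.zero_apply]
  have key : q.q (D a) = 0 := by
    induction a using DirectSum.Decomposition.inductionOn 𝒜 with
    | zero => rw [map_zero, map_zero]
    | @homogeneous i a => exact hcon i.1 i.2 a a.2
    | add a b ha hb => rw [map_add, map_add, ha, hb, add_zero]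
  have := Val.iK (q := q.q) (D a)
  rwa [key] at this

section
variable {N : ℤ} {n : ℕ} {f : Fin (n + 1) → Fin r → ℤ}
  {β : Fin (n + 1) → Fin (n + 1) → ((Fin r → ℤ) →+ ℤ)} {E F : Fin (n + 1) → Fin (n + 1) → VF R}
  {c : (Fin r → ℤ) →+ ℤ}

/-- A function of weight `f 1` is regular at the wall `f 0 - f 1`. -/
theorem rg_wallB (H : Hyp 𝒜) (hA : AC 𝒜 N n f β E F) (hv : NoVec 𝒜 n f) (hc : Ch2 𝒜 n f c)
    {x : FractionRing R} (hx : HK 𝒜 0 (f 1) x) (h0 : ∀ y0 : FP 𝒜, Pos c y0 → Rg y0.q x)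
    {y : FP 𝒜} (hy : Wall c (f 0 - f 1) y) : Rg y.q x := by
  by_contra hn
  obtain ⟨d, z, hz⟩ := XF.exists_coord H y hy.1
  obtain ⟨k, hk⟩ := (wallB H hA hv hc).fn y hy _ x hx h0 d z hz
  obtain ⟨l, M, hl, hM, he⟩ := H900.xmon H y hz hx hk hn
  rw [zero_smul, zero_add] at he
  obtain ⟨-, h, -⟩ := rel_fun1 H hA hv hc hy.1 (c01 hA hc) hy.2 hl hM he
  exact f1_ne hA h.symm

theorem fieldB (H : Hyp 𝒜) (hA : AC 𝒜 N n f β E F) (hv : NoVec 𝒜 n f) (hc : Ch2 𝒜 n f c)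
    {p q : FP 𝒜} (hp : Pos c p) (hq1 : q.Pi (-f 1)) (hq : ∀ ψ, q.Pi ψ → ψ ≠ -f 1 → 0 < c ψ)
    (hno : ¬ q.Pi (f 1 - f (Fin.last n))) {m : ℕ} {φ : R →ₐ[ℂ] Polynomial ℂ}
    (hφ : Curve q p (-f 1) m φ) :
    ∃ D : VF R, Glob D ∧ HV 𝒜 (-f (Fin.last n)) D ∧ NZ φ D ∧ ValV p.q D 0 := by
  have wA := wallA H hA hv hc
  have wB := wallB H hA hv hc
  have c1 := hc.pos
  have ca := c01 hA hc
  have hN := hA.N0
  have hn2 := hA.n2
  have h01 := z01 hn2
  have h0L := z0L hn2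
  have h1L := z1L hn2
  have hcL : c (f (Fin.last n)) < 0 := hc.neg (Fin.last n) (by simpa using hA.n2)
  have hqW : Wall c (f 1) q := ⟨hq1, hq⟩
  have hf1 : f 1 ≠ 0 := fun h => by
    rw [h, map_zero] at c1
    exact lt_irrefl _ c1
  have hf0 : f 0 ≠ 0 := fun h => by
    have := c0 hA hc
    rw [h, map_zero] at this
    exact lt_irrefl _ this
  have hsrc : ∀ (m : Fin r → ℤ) (x : FractionRing R), HK 𝒜 0 m x → Rg p.q x →
      ∀ y0 : FP 𝒜, Pos c y0 → Rg y0.q x := fun m x hx hr y0 hy0 =>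
    A04.same_rg H (pos_unique H c hc.ne hp hy0) hx hr
  have hsrcV : ∀ (v : VF R), HV 𝒜 (-f (Fin.last n)) v → RgV p.q v →
      ∀ y0 : FP 𝒜, Pos c y0 → RgV y0.q v := fun v hx hr y0 hy0 =>
    A04.same_rgV H (pos_unique H c hc.ne hp hy0) hx hr
  have hr0 := hA.root 0 (Fin.last n) h0L
  have hr1 := hA.root 1 (Fin.last n) h1L
  obtain ⟨D0, hD0, hD0h⟩ := hr0.globE.exists_hder hr0.hvE
  obtain ⟨D1, hD1, hD1h⟩ := hr1.globE.exists_hder hr1.hvE
  -- `f 1 - f L` is a weight at `p`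
  have hp1 : p.Pi (f 1) := by
    have := hφ.ya'
    rwa [neg_neg] at this
  have hp1L : p.Pi (f 1 - f (Fin.last n)) := by
    by_contra hcon
    have h2 := H155.root_sub0 H hN (H155.toRoot0 hr1) hcon (fun h => by
      have h3 := hp _ h
      rw [map_neg, map_sub] at h3
      omega) hp1 (by
      rw [hA.be 1 (Fin.last n) 1 h1L, if_pos rfl, if_neg h1L]
      omega)
    rw [sub_sub_cancel] at h2
    have := hp _ h2
    omega
  -- the function along the curve
  obtain ⟨s, hs, hs1⟩ := H144.exists_sec H p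
  obtain ⟨d, u, hu, huφ⟩ := hφ.un'
  have hu0 : φ u ≠ 0 := fun h => huφ (by rw [h, Polynomial.coeff_zero])
  rw [sub_neg_eq_add] at hu
  have hsd0 := H144.sec_ne (y := p) hs1 d
  set X : FractionRing R := iK u / iK (s ^ d) with hX
  have hXe : iK (s ^ d) * X = iK u := by
    rw [hX, mul_comm, div_mul_cancel₀ _ hsd0]
  have hXk : HK 𝒜 0 (f 1) X := by
    refine ⟨d, d, d • p.ν + f 1, d • p.ν, u, hu, s ^ d, H144.sec_pow hs d, ?_, hXe, by simp,
      by abel⟩
    intro h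
    exact hsd0 (by rw [h, iK_zero])
  have hXr : Rg p.q X := ⟨u, s ^ d, by rw [map_pow, hs1, one_pow]; exact one_ne_zero, hXe⟩
  -- values at `p`
  have hval : ∀ (i : Fin (n + 1)) (x : FractionRing R), i ≠ Fin.last n → f i ≠ 0 →
      HK 𝒜 0 (f i) x → Rg p.q x →
      HV 𝒜 (-f (Fin.last n)) (x • E i (Fin.last n)) ∧ ValV p.q (x • E i (Fin.last n)) 0 := by
    intro i x hi hfi hx hxp
    have hr := hA.root i (Fin.last n) hi
    have h1 : Val p.q x 0 := val_zero p hx hxp (by rwa [zero_smul])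
    obtain ⟨s, hs⟩ := (hr.globE.rgV (q := p.q)).val
    have h2 := ValV.smul h1 hs
    rw [zero_smul] at h2
    exact ⟨(hr.hvE.smul hx).cast (by abel), h2⟩
  obtain ⟨hvv, hvt⟩ := hval 1 X h1L hf1 hXk hXr
  obtain ⟨ρ, g0, g1, k1, k2, k3, k4, k5, k6, -, k8, k9⟩ := rm_wall H hA hv hc hq1 c1 hq
    hvv (wA.field q hqW _ _ hvv (hsrcV _ hvv hvt.rgV))
  have hg1 : g1 = 0 := k8 fun h => hno h.2
  obtain ⟨x, hx, hxp, hxA, hxB⟩ := interp H hA hv hc hp g0 0 k3 (HK.zero le_rfl)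
    (fun y hy d' z' hz' => by
      obtain ⟨k, hk⟩ := k5 d' z' (H399.same_crd (wA.uniq y q hy hqW) hz')
      exact ⟨k, same_rg_pow H (wA.uniq q y hqW hy) k3 hz'.1 hk⟩)
    (fun y hy d' z' hz' => ⟨0, by rw [mul_zero]; exact Rg.zero⟩)
  obtain ⟨hxv, hxt⟩ := hval 0 x h0L hf0 hx hxp
  have hDt : ValV p.q (X • E 1 (Fin.last n) - x • E 0 (Fin.last n)) 0 := by
    have h := hvt.sub hxt
    rwa [sub_zero] at h
  have hDv := hvv.sub hxv
  have hDG : Glob (X • E 1 (Fin.last n) - x • E 0 (Fin.last n)) := by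
    refine glob_of_walls H hA hv hc hDv (hsrcV _ hDv hDt.rgV) (fun y hy => ?_) fun y hy => ?_
    · have e : X • E 1 (Fin.last n) - x • E 0 (Fin.last n) =
          ρ + (g0 - x) • E 0 (Fin.last n) := by
        rw [k9, hg1, zero_smul, add_zero, sub_smul_vf]
        abel
      rw [e]
      exact (A04.same_rgV H (wA.uniq q y hqW hy) k2 k1).add (RgV.smul (hxA y hy) hr0.globE.rgV)
    · have e : X • E 1 (Fin.last n) - x • E 0 (Fin.last n) =
          X • E 1 (Fin.last n) + (0 - x) • E 0 (Fin.last n) := by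
        rw [sub_smul_vf, zero_smul]
        abel
      rw [e]
      exact (RgV.smul (rg_wallB H hA hv hc hXk (hsrc _ _ hXk hXr) hy) hr1.globE.rgV).add
        (RgV.smul (hxB y hy) hr0.globE.rgV)
  refine ⟨_, hDG, hDv, ?_, hDt⟩
  -- along the curve
  obtain ⟨e', me, h, hh, hhq⟩ := exists_test (q := p) (D := D1) (by
    rw [hD1]
    exact hr1.atE p hp1L)
  obtain ⟨g, hg⟩ := hDG h
  refine ⟨h, g, hg, fun hg0 => ?_⟩
  obtain ⟨k, k', s', a, hs', ha, hkk, hs1', hea⟩ := hx.exists_den H.hX p.nv p.fix hxp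
  have hkk' : k' = k := by omega
  subst hkk'
  have ha0 : φ a = 0 := by
    by_contra hne
    obtain ⟨i, -, hi, -⟩ := hφ.hom _ _ a ha hne
    rw [hφ.nu] at hi
    have e1 : ∀ g : (Fin r → ℤ) →+ ℤ, g (f 0) = (k' * m - i : ℤ) * g (f 1) := by
      intro g
      have h1 := congrArg g hi
      rw [map_add, map_nsmul, map_add, map_nsmul, map_neg, map_add, map_nsmul, map_nsmul, map_neg]
        at h1
      simp only [nsmul_eq_mul] at h1
      linear_combination h1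
    have e2 := e1 (β 0 1)
    have e3 := e1 c
    rw [hA.be 0 1 0 h01, hA.be 0 1 1 h01, if_pos rfl, if_neg h01, if_neg h01.symm, if_pos rfl]
      at e2
    have e4 : (k' * m - i : ℤ) = -1 := by
      have h5 : ((k' * m - i : ℤ) + 1) * N = 0 := by linear_combination e2
      rcases mul_eq_zero.1 h5 with h6 | h6 <;> omega
    rw [e4] at e3
    have := c0 hA hc
    omega
  have hs0' : φ s' ≠ 0 := fun h0 => by
    have h1 := hφ.ev' _ _ s' hs'
    rw [h0, Polynomial.coeff_zero, hs1'] at h1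
    exact zero_ne_one h1
  have h1h : φ (D1 h) ≠ 0 := fun h0 => by
    have h1 := hφ.ev' _ _ _ (hD1h e' me h hh)
    rw [h0, Polynomial.coeff_zero] at h1
    exact hhq h1.symm
  have key : s ^ d * s' * g = s' * u * D1 h - s ^ d * a * D0 h := by
    apply iK_inj
    rw [iK_mul, ← hg, Derivation.sub_apply, Derivation.smul_apply, Derivation.smul_apply,
      ← hD0, ← hD1, toVF_iK, toVF_iK, iK_sub, iK_mul, iK_mul, iK_mul, iK_mul, iK_mul, ← hXe,
      ← hea, smul_eq_mul, smul_eq_mul]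
    ring
  have key2 := congrArg φ key
  rw [map_mul, hg0, mul_zero, map_sub, map_mul, map_mul, map_mul, map_mul, ha0, mul_zero,
    zero_mul, sub_zero] at key2
  exact mul_ne_zero (mul_ne_zero hs0' hu0) h1h key2.symm

end

end Vale.Agent.P280.H340
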